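import Claimed.Statements.S0472
import Claimed.Agent.R236.GFinalThm

set_option autoImplicit false
open Claims Claims.C0400
open Claims Claims.C0400

namespace Claimed.Agent.S0472

theorem result (g s r : ℕ) (hr : 1 ≤ r)
    (C : Fin s → Matrix (Fin r) (Fin r) ℂ) (hdet : ∀ j, (C j).det = 1)
    (hqu : ∀ j, ∀ μ : ℂ, (C j).charpoly.IsRoot μ → ∃ m : ℕ, 0 < m ∧ μ ^ m = 1)
    (K : IntermediateField ℚ ℂ) (hK : FiniteDimensional ℚ K)
    (hKeig : ∀ j, ∀ μ : ℂ, (C j).charpoly.IsRoot μ → μ ∈ K) :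
    ∃ L : IntermediateField ℚ ℂ, FiniteDimensional ℚ L ∧ K ≤ L ∧
      ∀ (m : ℕ) (f : Fin m → MvPolynomial (PuncVar g s r) ℤ) (c : Fin m → ℂ),
        (∀ i, IsPuncInvariant (f i)) →
        (∀ ρ, IsPuncRep ρ → InBoundaryLocus C ρ →
          (∀ h : MvPolynomial (PuncVar g s r) ℤ, IsPuncInvariant h →
            MvPolynomial.aeval ρ h ∈ L ∧ IsIntegral ℤ (MvPolynomial.aeval ρ h)) →
          ∑ i, c i * MvPolynomial.aeval ρ (f i) = 0) →
        ∀ ρ, IsPuncRep ρ → InBoundaryLocus C ρ → ∑ i, c i * MvPolynomial.aeval ρ (f i) = 0 :=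
  Claimed.Agent.R236.top_S0472 g s r hr C hdet hqu K hKeig (Claimed.Agent.R236.fin_ThmN_all r g s K hK)

end Claimed.Agent.S0472
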