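import Claimed.Statements.S0475
import Claimed.Agent.R239.Glue.End

set_option autoImplicit false
open Claims Claims.C0403
open Claims Claims.C0403

namespace Claimed.Agent.S0475

theorem result
    (F₁ E₁ F₂ E₂ : Type) [Field F₁] [NumberField F₁] [Field E₁] [Algebra F₁ E₁] [IsGalois F₁ E₁]
    [Field F₂] [NumberField F₂] [Field E₂] [Algebra F₂ E₂] [IsGalois F₂ E₂]
    (h₁ : SolvablyClosed E₁) (h₂ : SolvablyClosed E₂)
    (α : (E₁ ≃ₐ[F₁] E₁) →* (E₂ ≃ₐ[F₂] E₂)) (hcont : Continuous α) (hopen : IsOpen (Set.range α)) :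
    ∃! j : E₂ →+* E₁, ∀ (g : E₁ ≃ₐ[F₁] E₁) (x : E₂), g (j x) = j (α g x) := by
  exact Claimed.Agent.R239.end_main F₁ E₁ F₂ E₂ h₁ h₂ α hcont hopen

end Claimed.Agent.S0475
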