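import Claimed.Statements.S0480
import Claimed.Agent.R242.Top

set_option autoImplicit false
open Claims Claims.C0408
open AlgebraicGeometry CategoryTheory Order
open Claims Claims.C0408

namespace Claimed.Agent.S0480

theorem result (X : Scheme.{0}) [IsIntegral X] [IsLocallyNoetherian X]
    (π : X ⟶ Spec (CommRingCat.of ℂ)) (n : ℕ) (hn : 1 ≤ n) [IsProper π]
    [SmoothOfRelativeDimension n π] (L : X → ℤ) (hL : IsWeilDivisor L) (hample : IsAmpleDiv L)
    (m : ℕ) (hm : n + 1 ≤ m) :
    AdjointGloballyGenerated π n (m • L) :=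
  Claimed.Agent.R242.s0480 X π n hn L hL hample m hm

end Claimed.Agent.S0480
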