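import Claimed.Statements.S0484
import Claimed.Agent.R245.Top
import Claimed.Agent.R245.S4Top
import Claimed.Agent.R245.S4Tr
import Claimed.Agent.R245.Poly
import Claimed.Agent.R245.GeoTop

set_option autoImplicit false
open Claims Claims.C0412
open MvPolynomial
open Claims Claims.C0412

namespace Claimed.Agent.S0484

theorem result (F : MvPolynomial (Fin 4) ℂ)
    (hF : IsSmoothQuarticForm F) (m : ℕ) (hm : 1 ≤ m) (K U : Set (Fin m → ℂ))
    (hKne : K.Nonempty) (hKc : IsCompact K) (hKconv : Convex ℝ K) (hU : IsOpen U) (hKU : K ⊆ U)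
    (g : (Fin m → ℂ) → (Fin 4 → ℂ)) (hg : DifferentiableOn ℂ g U)
    (hgX : ∀ z ∈ U, g z ≠ 0 ∧ eval (g z) F = 0) (ε : ℝ) (hε : 0 < ε) :
    ∃ G : (Fin m → ℂ) → (Fin 4 → ℂ), Differentiable ℂ G ∧
      (∀ z, G z ≠ 0 ∧ eval (G z) F = 0) ∧ ∀ z ∈ K, projChordalSq (G z) (g z) < ε :=
  Claimed.Agent.R245.top_s0484_of_capCone F
    (Claimed.Agent.R245.s4_capCone_of_propA F
      (Claimed.Agent.R245.s4_all F hF (Claimed.Agent.R245.po_main F hF (Claimed.Agent.R245.geo_main F hF))))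
    m K U hKne hKc hKconv hU hKU g hg hgX ε hε

end Claimed.Agent.S0484
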