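import Claimed.Statements.S0492
import Claimed.Agent.R252.Top.Final

set_option autoImplicit false
open Claims Claims.C0420
open Claims Claims.C0420

namespace Claimed.Agent.S0492

theorem result (K : Set (EuclideanSpace ℝ (Fin 4)))
    (hK : ∀ e : EuclideanSpace ℝ (Fin 4), ‖e‖ = 1 →
      ∃ a : EuclideanSpace ℝ (Fin 4), ∀ t ∈ Set.Icc (0 : ℝ) 1, a + t • e ∈ K) :
    dimH K = 4 :=
  Claimed.Agent.R252.kt_final K hK

end Claimed.Agent.S0492
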