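import Claimed.Statements.S0494
import Claimed.Agent.R254.Top.Final
import Claimed.Agent.R255.Pkt.Final

set_option autoImplicit false
open Claims Claims.C0422
open MeasureTheory
open scoped ContDiff
open Claims Claims.C0422

namespace Claimed.Agent.S0494

theorem result (φ : EuclideanSpace ℝ (Fin 2) → ℝ)
    (hφ : ContDiff ℝ ∞ φ) (K : Set (EuclideanSpace ℝ (Fin 2))) (hK : IsCompact K)
    (hcurv : ∀ y ∈ K, ∀ v : EuclideanSpace ℝ (Fin 2), v ≠ 0 →
      0 < iteratedFDeriv ℝ 2 φ y (fun _ => v))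
    (p : ℝ) (hp : 3 < p) :
    ∃ C : ℝ, ∀ f : EuclideanSpace ℝ (Fin 2) → ℂ,
      eLpNorm (graphExtension φ K f) (ENNReal.ofReal p) volume ≤
        ENNReal.ofReal C * eLpNorm f (ENNReal.ofReal p) (graphSurfaceMeasure φ K) :=
  Claimed.Agent.R254.s0494_of_osc Claimed.Agent.R255.Pkt.osc φ hφ K hK hcurv p hp

end Claimed.Agent.S0494
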