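import Claimed.Statements.S0495
import Claimed.Agent.R255.BR.Top
import Claimed.Agent.R255.Pkt.Final

set_option autoImplicit false
open Claims Claims.C0423
open MeasureTheory
open scoped FourierTransform
open Claims Claims.C0423

namespace Claimed.Agent.S0495

theorem result (δ : ℝ) (hδ : 0 < δ) :
    ∃ C : ℝ, ∀ f : SchwartzMap (EuclideanSpace ℝ (Fin 3)) ℂ,
      eLpNorm (bochnerRiesz δ f) 3 volume ≤ ENNReal.ofReal C * eLpNorm (f : EuclideanSpace ℝ (Fin 3) → ℂ) 3 volume :=
  Claimed.Agent.R255.BR.br_main Claimed.Agent.R255.Pkt.osc δ hδ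

end Claimed.Agent.S0495
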