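import Claimed.Statements.S0496
import Claimed.Agent.R256.Hub

set_option autoImplicit false
open Claims Claims.C0424
open MeasureTheory
open scoped FourierTransform
open Claims Claims.C0424

namespace Claimed.Agent.S0496

theorem result (ε : ℝ) (hε : 0 < ε) :
    ∃ C : ℝ, ∀ f : SchwartzMap (EuclideanSpace ℝ (Fin 3)) ℂ,
      eLpNorm (fun z : EuclideanSpace ℝ (Fin 3) × ℝ => halfWave f z.2 z.1) 3
          ((volume : Measure (EuclideanSpace ℝ (Fin 3))).prod (volume.restrict (Set.Icc (1 : ℝ) 2))) ≤
        ENNReal.ofReal C * eLpNorm (besselPotential ε f) 3 volume :=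
  Claimed.Agent.R256.hub_main ε hε

end Claimed.Agent.S0496
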