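import Claimed.Statements.S0497
import Claimed.Agent.R257.Top3

set_option autoImplicit false
open Claims Claims.C0425
open MeasureTheory Filter Topology
open scoped FourierTransform
open Claims Claims.C0425

namespace Claimed.Agent.S0497

theorem result (n : ℕ) (hn : 2 ≤ n)
    (f : Lp ℂ 2 (volume : Measure (EuclideanSpace ℝ (Fin n))))
    (hf : Integrable (fun η : EuclideanSpace ℝ (Fin n) =>
      Real.rpow (1 + 4 * Real.pi ^ 2 * ‖η‖ ^ 2) ((n : ℝ) / (2 * ((n : ℝ) + 1))) *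
        ‖(𝓕 f : Lp ℂ 2 (volume : Measure (EuclideanSpace ℝ (Fin n)))) η‖ ^ 2)) :
    ∀ᵐ x : EuclideanSpace ℝ (Fin n), ∃ v : ℝ → ℂ, v 0 = f x ∧ ContinuousOn v (Set.Ico 0 1) ∧
      TendstoUniformlyOn (fun a t => gaussianSchrodinger f a x t) v (𝓝[>] (0 : ℝ))
        (Set.Ioo 0 1) :=
  Claimed.Agent.R257.r257_top n hn (Claimed.Agent.R257.W0_ok n)
    (Claimed.Agent.R257.r257_rest hn (Claimed.Agent.R257.W0_ok n) (Claimed.Agent.R257.r257_rest2 hn _)) f hf

end Claimed.Agent.S0497
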