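import Claimed.Statements.S0498
import Claimed.Agent.R258.Top

set_option autoImplicit false
open Claims Claims.C0426
open MeasureTheory Filter Topology
open Claims Claims.C0426

namespace Claimed.Agent.S0498

theorem result :
    ∃ C : ℝ, ∀ f₁ f₂ f₃ : SchwartzMap ℝ ℂ,
      eLpNorm (trilinearHilbert f₁ f₂ f₃) 1 volume ≤
        ENNReal.ofReal C * (eLpNorm (f₁ : ℝ → ℂ) 3 volume * eLpNorm (f₂ : ℝ → ℂ) 3 volume *
          eLpNorm (f₃ : ℝ → ℂ) 3 volume) :=
  Claimed.Agent.R258.r258_top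

end Claimed.Agent.S0498
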