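import Claimed.Statements.S0499
import Claimed.Agent.R259.Pack053

set_option autoImplicit false
open Claims Claims.C0427
open MeasureTheory
open scoped ContDiff
open Claims Claims.C0427

namespace Claimed.Agent.S0499

theorem result :
    ∃ C : ℝ, ∀ n : ℕ, 1 ≤ n → ∀ ρ : EuclideanSpace ℝ (Fin n) → ℝ, IsLogConcaveProbDensity ρ →
      (∫ x, ρ x • x) = 0 →
      ∀ a : ℝ, 0 < a →
      (∀ θ : EuclideanSpace ℝ (Fin n), ‖θ‖ = 1 →
        ∫⁻ x, ENNReal.ofReal (Real.exp ((inner ℝ x θ) ^ 2 / a ^ 2) * ρ x) ≤ 2) →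
      ∀ f : EuclideanSpace ℝ (Fin n) → ℝ, ContDiff ℝ ∞ f → HasCompactSupport f →
        entropyWrt ρ (fun x => f x ^ 2) ≤ C * a ^ 2 * ∫ x, ‖fderiv ℝ f x‖ ^ 2 * ρ x :=
  Claimed.Agent.R259.top_main

end Claimed.Agent.S0499
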