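import Claimed.Statements.S0510
import Claimed.Agent.R269.Stages

set_option autoImplicit false
open Claims Claims.C0438
open Claims Claims.C0438

namespace Claimed.Agent.S0510

theorem result (Ω : Set (ℝ × ℝ)) (γ : ℝ → ℝ × ℝ) (L : ℝ)
    (hΩo : IsOpen Ω) (hΩb : Bornology.IsBounded Ω) (hΩc : StrictConvex ℝ (closure Ω))
    (hγ : IsSmoothSimpleClosedRegular γ L) (hbd : frontier Ω = Set.range γ)
    (hcurv : ∀ t, det2 (deriv γ t) (deriv (deriv γ) t) ≠ 0)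
    (hcollar : HasCausticCollar Ω γ) :
    ∃ (c : ℝ × ℝ) (a b d : ℝ), 0 < a ∧ 0 < a * d - b ^ 2 ∧
      Ω = {x | a * (x.1 - c.1) ^ 2 + 2 * b * (x.1 - c.1) * (x.2 - c.2) + d * (x.2 - c.2) ^ 2 < 1} := by
  obtain ⟨c₀, h, hs, hΩ, hg⟩ := Claimed.Agent.R269.stage_T0 Ω γ L hΩo hΩb hΩc hγ hbd hcurv hcollar
  rw [hΩ]
  exact Claimed.Agent.R269.core c₀ h hs hg

end Claimed.Agent.S0510
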