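import Claimed.Statements.S0511
import Claimed.Agent.R269.Stages

set_option autoImplicit false
open Claims Claims.C0439
open Claims Claims.C0439

namespace Claimed.Agent.S0511

theorem result (Ω : Set (ℝ × ℝ)) (γ : ℝ → ℝ × ℝ) (L : ℝ)
    (hΩo : IsOpen Ω) (hΩb : Bornology.IsBounded Ω) (hΩc : StrictConvex ℝ (closure Ω))
    (hL : 0 < L) (hsmooth : ContDiff ℝ ((⊤ : ℕ∞) : WithTop ℕ∞) γ) (hper : Function.Periodic γ L)
    (hinj : Set.InjOn γ (Set.Ico 0 L)) (hunit : ∀ s, dot2 (deriv γ s) (deriv γ s) = 1)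
    (hbd : frontier Ω = Set.range γ) (hcurv : ∀ s, 0 < det2 (deriv γ s) (deriv (deriv γ) s))
    (U : Set (AddCircle L × Set.Ioo (0 : ℝ) Real.pi)) (hUo : IsOpen U)
    (hUinv : IsBilliardInvariant γ L U)
    (η : ℝ) (hη : 0 < η) (hstrip : ∀ p : AddCircle L × Set.Ioo (0 : ℝ) Real.pi, (p.2 : ℝ) < η → p ∈ U)
    (H : Circle × Set.Ioo (0 : ℝ) 1 ≃ₜ U)
    (hleaf_inv : ∀ b : Set.Ioo (0 : ℝ) 1,
      IsBilliardInvariant γ L (Subtype.val '' (H '' {x | x.2 = b})))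
    (hleaf_ess : ∀ b : Set.Ioo (0 : ℝ) 1, ∀ f : C(Circle, AddCircle L × Set.Ioo (0 : ℝ) Real.pi),
      (∀ z, f z = (H (z, b) : AddCircle L × Set.Ioo (0 : ℝ) Real.pi)) →
      ∀ m, ¬ f.Homotopic (ContinuousMap.const Circle m)) :
    ∃ (c : ℝ × ℝ) (a b d : ℝ), 0 < a ∧ 0 < a * d - b ^ 2 ∧
      Ω = {x | a * (x.1 - c.1) ^ 2 + 2 * b * (x.1 - c.1) * (x.2 - c.2) + d * (x.2 - c.2) ^ 2 < 1} := by
  obtain ⟨c₀, h, hs, hΩ, hg⟩ := Claimed.Agent.R269.stage_T0' Ω γ L hΩo hΩb hΩc hL hsmooth hper hinj hunit hbd hcurv U hUo hUinv η hη hstrip H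
    hleaf_inv hleaf_ess
  rw [hΩ]
  exact Claimed.Agent.R269.core c₀ h hs hg

end Claimed.Agent.S0511
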