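import Claimed.Statements.S0525
import Claimed.Agent.R280.A.Main
import Claimed.Agent.R280.Top

set_option autoImplicit false
open Claims Claims.C0453
open Claims Claims.C0453

namespace Claimed.Agent.S0525

theorem result (p : ℕ) [Fact p.Prime] (k : Type) [Field k] [IsAlgClosed k]
    [CharP k p] (G : Type) [Group G] [Finite G] (B : MonoidAlgebra k G)
    (hB : IsBlockIdempotent B) :
    (numSimplesInBlock B : ℚ) = numWeightClasses p B :=
  Claimed.Agent.R280.A.S0525_of_tupleDiv (Claimed.Agent.R280.tupleDiv p) B hB

end Claimed.Agent.S0525
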