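import Claimed.Statements.S0528
import Claimed.Agent.R282.Top.Final

set_option autoImplicit false
open Claims Claims.C0456
open Claims Claims.C0456

namespace Claimed.Agent.S0528

theorem result (n : ℕ) (hn : 2 ≤ n) (L M K : Fin n → ℤ)
    (hL : IsDominantWeight2 L) (hM : IsDominantWeight2 M) (hK : IsDominantWeight2 K)
    (hQ : SumInRootLatticeD L M K) (N : ℕ) (hN : 1 ≤ N) :
    HasTensorInvariant L M K ↔ HasTensorInvariant (N • L) (N • M) (N • K) :=
  Claimed.Agent.R282.s0528_final n hn L M K hL hM hK hQ N hN

end Claimed.Agent.S0528
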