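import Claimed.Statements.S0531
import Claimed.Agent.R285.Glue.Wire

set_option autoImplicit false
open Claims Claims.C0459
open MeasureTheory Filter Topology
open Claims Claims.C0459

namespace Claimed.Agent.S0531

theorem result :
    ∃ B : ℝ, 0 < B ∧
      Tendsto (fun r : ℕ => xyCorr xyCritical r /
          ((r : ℝ) ^ (-(1 : ℝ) / 4) * Real.log r ^ ((1 : ℝ) / 8))) atTop (𝓝 B) :=
  Claimed.Agent.R285.Glue.s0531_glued

end Claimed.Agent.S0531
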