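import Claimed.Statements.S0532
import Claimed.Agent.R285.Glue.Wire

set_option autoImplicit false
open Claims Claims.C0460
open MeasureTheory Filter Topology
open Claims Claims.C0460

namespace Claimed.Agent.S0532

theorem result :
    ∃ A : ℝ, 0 < A ∧
      Tendsto (fun b : ℝ => Real.sqrt (xyCritical - b) * Real.log (xyMass b)⁻¹)
        (𝓝[<] xyCritical) (𝓝 A) :=
  Claimed.Agent.R285.Glue.s0532_glued

end Claimed.Agent.S0532
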