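import Claimed.Statements.S0533
import Claimed.Agent.R286.Hub

set_option autoImplicit false
open Claims Claims.C0461
open MeasureTheory ProbabilityTheory Filter Topology BoundedContinuousFunction
open Claims Claims.C0461

namespace Claimed.Agent.S0533

theorem result (β : ℝ) (hβ : 1 < β) :
    (∃ c : ℝ, 0 < c ∧
      Tendsto (fun n : ℕ => skVariance β n / (n : ℝ) ^ ((1 : ℝ) / 3)) atTop (𝓝 c)) ∧
    ∃ ν : Measure ℝ, IsProbabilityMeasure ν ∧ ∫ x, x ∂ν = 0 ∧ ∫ x, x ^ 2 ∂ν = 1 ∧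
      (∃ t : ℝ, 0 < t ∧ Integrable (fun x => Real.exp (t * |x|)) ν) ∧
      ∀ f : ℝ →ᵇ ℝ, Tendsto (fun n : ℕ => ∫ g, f (skStandardized β n g) ∂skDisorder n) atTop
        (𝓝 (∫ x, f x ∂ν)) := by
  exact Claimed.Agent.R286.hub_main β hβ

end Claimed.Agent.S0533
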