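import Claimed.Statements.S0534
import Claimed.Agent.R287.Hub

set_option autoImplicit false
open Claims Claims.C0462
open MeasureTheory ProbabilityTheory
open Claims Claims.C0462

namespace Claimed.Agent.S0534

theorem result (d : ℕ) (hd : 3 ≤ d) (E : ℝ)
    (hE : |E| < 2 * Real.sqrt ((d : ℝ) - 1)) (h : ℝ → ℝ) (hcont : Continuous h)
    (hsupp : HasCompactSupport h) (hnn : ∀ t, 0 ≤ h t) :
    ∀ ε : ℝ, 0 < ε → ∃ N : ℕ, ∀ n : ℕ, N ≤ n → (regularGraphs n d).Nonempty →
      |regularLaplace n d E h - goeLaplace n h| < ε :=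
  Claimed.Agent.R287.r7_main d hd E hE h hcont hsupp hnn

end Claimed.Agent.S0534
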