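import Claimed.Statements.S0537
import Claimed.Agent.R289.Hub

set_option autoImplicit false
open Claims Claims.C0465
open MeasureTheory ProbabilityTheory Filter Topology
open Claims Claims.C0465

namespace Claimed.Agent.S0537

theorem result (D : Set ℂ) (hDo : IsOpen D) (hDb : Bornology.IsBounded D)
    (hDj : ∃ γ : Circle → ℂ, Continuous γ ∧ Function.Injective γ ∧ Set.range γ = frontier D)
    (a b c d : ℂ) (ha : a ∈ frontier D) (hb : b ∈ frontier D) (hc : c ∈ frontier D)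
    (hd : d ∈ frontier D) (ψ : ℂ → ℂ) (hψh : DifferentiableOn ℂ ψ D)
    (hψi : Set.InjOn ψ (closure D \ {d})) (hψc : ContinuousOn ψ (closure D \ {d}))
    (hψD : ψ '' D = {z | 0 < z.im}) (hψbd : ψ '' (frontier D \ {d}) = {z | z.im = 0})
    (hψd : Tendsto (fun z => ‖ψ z‖) (𝓝[closure D \ {d}] d) atTop)
    (hψa : ψ a = 0) (hψc1 : ψ c = 1) (had : a ≠ d) (hbd : b ≠ d) (hcd : c ≠ d) (hord : 0 < (ψ b).re ∧ (ψ b).re < 1) :
    Tendsto
      (fun ε : ℝ => (pvLaw ε {ω | ∃ S : Set ℂ, S ⊆ pvBlack ω ∩ closure D ∧ IsConnected S ∧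
          (∃ z ∈ S, z ∈ frontier D ∧ z ≠ d ∧ 0 ≤ (ψ z).re ∧ (ψ z).re ≤ (ψ b).re) ∧
          (∃ z ∈ S, z = d ∨ (z ∈ frontier D ∧ z ≠ d ∧ 1 ≤ (ψ z).re))}).toReal)
      (𝓝[>] 0) (𝓝 (cardyF (ψ b).re)) := by
  exact Claimed.Agent.R289.pv_hub_main D hDo hDb hDj a b c d ha hb hc hd ψ hψh hψi hψc hψD hψbd hψd hψa hψc1 had hbd hcd hord

end Claimed.Agent.S0537
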