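import Claimed.Statements.S0539
import Claimed.Agent.R291.Hub

set_option autoImplicit false
open Claims Claims.C0467
open MeasureTheory ProbabilityTheory Filter Topology BoundedContinuousFunction
open Claims Claims.C0467

namespace Claimed.Agent.S0539

theorem result (x : ℝ) (hx1 : 1 / Real.sqrt 2 ≤ x) (hx2 : x ≤ 1) :
    ∃ σ : ℝ, 0 < σ ∧
      ∀ (D : Set (ℝ × ℝ)), IsC2JordanDomain D →
      ∀ (δ : ℕ → ℝ) (F : ℕ → Finset (ℤ × ℤ)), IsInsideApprox D δ F →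
      ∀ f : ℝ × ℝ → ℝ, ContDiff ℝ ((⊤ : ℕ∞) : WithTop ℕ∞) f → HasCompactSupport f →
        tsupport f ⊆ D →
      ∀ u : ℝ × ℝ → ℝ, ContDiffOn ℝ 2 u D → ContinuousOn u (closure D) →
        (∀ z ∈ frontier D, u z = 0) → (∀ z ∈ D, -lap2 u z = f z) →
      ∀ φ : ℝ →ᵇ ℝ,
        Tendsto (fun n => lipschitzExpect x (δ n) σ (F n) f φ) atTop
          (𝓝 (∫ t, φ t ∂gaussianReal 0 (∫ z in D, f z * u z).toNNReal)) :=
  Claimed.Agent.R291.hub_top x hx1 hx2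

end Claimed.Agent.S0539
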