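import Claimed.Statements.S0541
import Claimed.Agent.R293.Final

set_option autoImplicit false
open Claims Claims.C0469
open Filter Topology
open Claims Claims.C0469

namespace Claimed.Agent.S0541

theorem result (p : ℝ) (hp0 : 0 < p) (hp1 : p < 1) :
    Tendsto (fun n : ℕ => symSignSingularProb p n ^ ((1 : ℝ) / n)) atTop
      (𝓝 (p ^ 2 + (1 - p) ^ 2)) :=
  Claimed.Agent.R293.fin_frozen p hp0 hp1

end Claimed.Agent.S0541
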