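import Claimed.Statements.S0546
import Claimed.Agent.R296.P2.Final
import Claimed.Agent.R296.P2.GeoSqFinal
import Claimed.Agent.R296.RepFinal
import Claimed.Agent.R296.Cmp.Lower

set_option autoImplicit false
open Claims Claims.C0474
open Matrix
open Claims Claims.C0474

namespace Claimed.Agent.S0546

theorem result (q : ℕ) [NeZero q] (hq : 2 ≤ q) (J Δ : ℝ) (hJ : 0 < J)
    (hΔ : 0 < Δ) :
    ∃ C c : ℝ, 0 < C ∧ 0 < c ∧ ∀ L : ℕ, 2 ≤ L →
      ∀ (hv : Fin L × Fin L → Matrix (Fin L × Fin L → Fin q) (Fin L × Fin L → Fin q) ℂ)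
        (he : GridEdge L → Matrix (Fin L × Fin L → Fin q) (Fin L × Fin L → Fin q) ℂ),
        (∀ v, HermNormLE (embedAt {v} (hv v)) J) →
        (∀ e, HermNormLE (embedAt e.support (he e)) J) →
        ∀ (E₀ : ℝ) (Ω : (Fin L × Fin L → Fin q) → ℂ),
          star Ω ⬝ᵥ Ω = 1 →
          gridHamiltonian L q hv he *ᵥ Ω = (E₀ : ℂ) • Ω →
          IsPSD (gridHamiltonian L q hv he - (E₀ : ℂ) • 1 -
              (Δ : ℂ) • (1 - vecMulVec Ω (star Ω))) →
          ∃ D : ℕ, (D : ℝ) ≤ C * (L : ℝ) ^ c ∧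
            ∃ A : ∀ v : Fin L × Fin L, Fin q → (IncidentEdge v → Fin D) → ℂ,
              pepsVector A ≠ 0 ∧
              ∃ θ : ℝ,
                ∑ σ, ‖pepsVector A σ / (Real.sqrt (∑ τ, ‖pepsVector A τ‖ ^ 2) : ℂ) -
                    Complex.exp ((θ : ℂ) * Complex.I) * Ω σ‖ ^ 2 ≤ (1 / (L : ℝ)) ^ 2 :=
  Claimed.Agent.R296.fin_s0546
    (Claimed.Agent.R296.Scan.rf_replicaStmt_of Claimed.Agent.R296.Scan.cl_lowerK)
    Claimed.Agent.R296.ge_main q hq J Δ hJ hΔ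

end Claimed.Agent.S0546
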