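import Claimed.Statements.S0547
import Claimed.Agent.R297.Main547
import Claimed.Agent.R297.ThermalTable
import Claimed.Agent.R297.PTrial120
import Claimed.Agent.R297.TrialSUCert

set_option autoImplicit false
open Claims Claims.C0475
open Matrix Complex
open Claims Claims.C0475

namespace Claimed.Agent.S0547

theorem result :
    (∀ L : ℕ, Even L → 60 ≤ L →
      UniqueGroundStateGapGT (heisenbergRing L) (4 / 105 * Real.log (80 / 79))) ∧
    (∀ L : ℕ, Even L → 2304 ≤ L →
      UniqueGroundStateGapGT (heisenbergRing L) (Real.log 20 / 784)) :=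
  Claimed.Agent.R297.main547 Claimed.Agent.R297.thermal_table60
    (Claimed.Agent.R297.ptr_trial120 Claimed.Agent.R297.tsu_cert)

end Claimed.Agent.S0547
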