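import Claimed.Statements.S0548
import Claimed.Agent.R297.BInitMain
import Claimed.Agent.R297.ThermalTable
import Claimed.Agent.R297.PTrial120
import Claimed.Agent.R297.TrialSUCert
import Claimed.Agent.R297.TrialSWCert
import Claimed.Agent.R297.SThermalMain
import Claimed.Agent.R297.OMpsMain

set_option autoImplicit false
open Claims Claims.C0476
open Matrix Complex
open Claims Claims.C0476

namespace Claimed.Agent.S0548

theorem result (L : ℕ) (hL : 960 ≤ L) :
    UniqueGroundStateGapGT (heisenbergOpenField L (3 / 5)) (Real.log 10 / 392) :=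
  Claimed.Agent.R297.binit_main Claimed.Agent.R297.thermal_table60
    (Claimed.Agent.R297.ptr_trial120 Claimed.Agent.R297.tsu_cert) Claimed.Agent.R297.tsw_trial30
    Claimed.Agent.R297.sth_thermalCert Claimed.Agent.R297.omp_trial29 Claimed.Agent.R297.omp_trial59
    Claimed.Agent.R297.omp_trial89 Claimed.Agent.R297.omp_trial119 L hL

end Claimed.Agent.S0548
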