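import Claimed.Statements.S0552
import Claimed.Agent.R300.ItTop

set_option autoImplicit false
open Claims Claims.C0480
open Claims Claims.C0480

namespace Claimed.Agent.S0552

theorem result :
    ∃ (G : Type) (_ : Group G), Group.FG G ∧
      ∃ e ∈ reducedGroupCStarAlgebra G, IsStarProjection e ∧
        Irrational (canonicalGroupTrace G e).re :=
  Claimed.Agent.R300.it_main

end Claimed.Agent.S0552
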