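import Claimed.Statements.S0553
import Claimed.Agent.R300.InjTop

set_option autoImplicit false
open Claims Claims.C0481
open Claims Claims.C0481

namespace Claimed.Agent.S0553

theorem result :
    ∃ (G : Type) (_ : Group G), Group.FG G ∧ (∀ g : G, IsOfFinOrder g → g = 1) ∧
      ∃ i : Multiplicative (ℤ × ℤ) →* G, Function.Injective i ∧
        (∃ c : G → G → ℤ, (∀ a b d : G, c a b + c (a * b) d = c a (b * d) + c b d) ∧
          ∃ s : ℤ, (s = 1 ∨ s = -1) ∧ ∃ φ : Multiplicative (ℤ × ℤ) → ℤ, ∀ x y,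
            c (i x) (i y) = s * ((Multiplicative.toAdd x).2 * (Multiplicative.toAdd y).1) +
              (φ x + φ y - φ (x * y))) ∧
        ∀ u v : GroupL2 G →L[ℂ] GroupL2 G,
          IsLeftTranslation (i (Multiplicative.ofAdd ((1 : ℤ), (0 : ℤ)))) u →
          IsLeftTranslation (i (Multiplicative.ofAdd ((0 : ℤ), (1 : ℤ)))) v →
          ∃ (k : ℕ) (w : Matrix (Fin 2 ⊕ Fin k) (Fin 2 ⊕ Fin k) (GroupL2 G →L[ℂ] GroupL2 G)),
            (∀ a b, w a b ∈ reducedGroupCStarAlgebra G) ∧
            w.conjTranspose * w = Matrix.fromBlocks (bottProjection u v) 0 0 1 ∧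
            w * w.conjTranspose =
              Matrix.fromBlocks (Matrix.of ![![(1 : GroupL2 G →L[ℂ] GroupL2 G), 0], ![0, 0]]) 0 0 1 := by
  exact Claimed.Agent.R300.inj_goal

end Claimed.Agent.S0553
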