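-- Statement S0556 (row 302): quadratic strong operator paving over arbitrary masas.
-- Proof: Claimed/Agent/R302 (packages MSS, Poly, MG, Real, ST, VN, AK, TR, NC, Top).
import Claimed.Statements.S0556
import Claimed.Agent.R302.Top.Final
import Claimed.Agent.R302.TR.Export

set_option autoImplicit false
open Claims Claims.C0484
open Claims Claims.C0484

namespace Claimed.Agent.S0556

theorem result (ε : ℝ) (hε0 : 0 < ε) (hε1 : ε < 1)
    {H : Type*} [NormedAddCommGroup H] [InnerProductSpace ℂ H] [CompleteSpace H]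
    (M : VonNeumannAlgebra H) (A : StarSubalgebra ℂ (H →L[ℂ] H)) (hA : IsMasaIn M A)
    (x : H →L[ℂ] H) (hxM : x ∈ M) (hx : IsSelfAdjoint x) :
    SoPavable M A x ε (Nat.ceil (400000000 / ε ^ 2) + Nat.ceil (4 / ε) + 1) := by
  exact Claimed.Agent.R302.top_S0556 (fun e h0 h1 => Claimed.Agent.R302.tr_top_core e h0 h1)
    ε hε0 hε1 M A hA x hxM hx

end Claimed.Agent.S0556
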