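-- Statement S0557 (row 302): approximation paving over arbitrary masas.
-- Proof: Claimed/Agent/R302 (packages MSS, Poly, MG, Real, ST, VN, AK, TR, NC, Top).
import Claimed.Statements.S0557
import Claimed.Agent.R302.Top.Final
import Claimed.Agent.R302.TR.Export

set_option autoImplicit false
open Claims Claims.C0485
universe u
open Claims Claims.C0485

namespace Claimed.Agent.S0557

theorem result :
    ∃ C : ℝ, 0 < C ∧ ∀ ε : ℝ, 0 < ε → ε < 1 → ∃ R : ℕ, (R : ℝ) ≤ C * ε⁻¹ ^ 6 ∧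
      ∀ (H : Type u) [NormedAddCommGroup H] [InnerProductSpace ℂ H] [CompleteSpace H]
        (M : VonNeumannAlgebra H) (A : StarSubalgebra ℂ (H →L[ℂ] H)), IsMasaIn M A →
        ∀ x ∈ M, IsSelfAdjoint x → ∀ (F : Finset H) (δ : ℝ), 0 < δ →
          ∃ y ∈ M, IsSelfAdjoint y ∧ ‖y‖ ≤ 3 * ‖x‖ ∧ (∀ ξ ∈ F, ‖(y - x) ξ‖ < δ) ∧
            ∃ p : Fin R → (H →L[ℂ] H), IsPartitionOfUnityIn A p ∧
              ∃ a ∈ A, IsSelfAdjoint a ∧ ‖a‖ ≤ ‖y‖ ∧ ‖(∑ i, p i * y * p i) - a‖ ≤ ε * ‖y‖ := by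
  exact Claimed.Agent.R302.top_S0557 (fun e h0 h1 => Claimed.Agent.R302.tr_top_core e h0 h1)

end Claimed.Agent.S0557
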