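import Claimed.Statements.S0559
import Claimed.Agent.R304.Top

set_option autoImplicit false
open Claims Claims.C0487
open Claims Claims.C0487

namespace Claimed.Agent.S0559

theorem result (n : ℕ) (hn : 1 ≤ n)
    (G : Type*) [Group G] [TopologicalSpace G] [IsTopologicalGroup G] [LocallyCompactSpace G]
    [SecondCountableTopology G] [T2Space G]
    (X : Type*) [TopologicalSpace X] [T2Space X] [SecondCountableTopology X] [ConnectedSpace X]
    [ChartedSpace (EuclideanSpace ℝ (Fin n)) X]
    [MulAction G X] [ContinuousSMul G X] [FaithfulSMul G X] :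
    ∃ (d : ℕ) (_ : ChartedSpace (EuclideanSpace ℝ (Fin d)) G),
      IsManifold (modelWithCornersSelf ℝ (EuclideanSpace ℝ (Fin d))) ((⊤ : ℕ∞) : WithTop ℕ∞) G ∧
        LieGroup (modelWithCornersSelf ℝ (EuclideanSpace ℝ (Fin d))) ((⊤ : ℕ∞) : WithTop ℕ∞) G := by
  exact Claimed.Agent.R304.hsT_main n hn G X

end Claimed.Agent.S0559
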