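import Claimed.Statements.S0570
import Claimed.Agent.R314.Bridge
import Claimed.Agent.R315.Top.Main

set_option autoImplicit false
open Claims Claims.C0498
open scoped ContDiff Topology
open Claims Claims.C0498

namespace Claimed.Agent.S0570

theorem result (N n : ℕ) (M : Set (EuclideanSpace ℝ (Fin N)))
    (hM : IsClosedSubmanifold n M)
    (hasph : ∀ k : ℕ, 2 ≤ k → ∀ x : M, Subsingleton (π_ k M x))
    (g : EuclideanSpace ℝ (Fin N) →
      EuclideanSpace ℝ (Fin N) →L[ℝ] EuclideanSpace ℝ (Fin N) →L[ℝ] ℝ)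
    (hg : ContDiff ℝ ∞ g)
    (hpos : ∀ (ψ : EuclideanSpace ℝ (Fin n) → EuclideanSpace ℝ (Fin N))
      (U : Set (EuclideanSpace ℝ (Fin n))), IsLocalParam M ψ U → ∀ u ∈ U,
        (coordMetric g ψ u).PosDef)
    (hscal : ∀ (ψ : EuclideanSpace ℝ (Fin n) → EuclideanSpace ℝ (Fin N))
      (U : Set (EuclideanSpace ℝ (Fin n))), IsLocalParam M ψ U → ∀ u ∈ U,
        0 ≤ scalarCoord (coordMetric g ψ) u) :
    ∀ (ψ : EuclideanSpace ℝ (Fin n) → EuclideanSpace ℝ (Fin N))
      (U : Set (EuclideanSpace ℝ (Fin n))), IsLocalParam M ψ U → ∀ u ∈ U,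
        ∀ l i j k : Fin n, riemannCoord (coordMetric g ψ) u l i j k = 0 :=
  Claimed.Agent.R314.frozen_of (fun _ M g w h => Claimed.Agent.R315.t3_main M g w h)
    (fun n hn => Claimed.Agent.R315.n4_main n hn) N n M hM hasph g hg hpos hscal

end Claimed.Agent.S0570
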