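import Claimed.Statements.S0571
import Claimed.Agent.R315.Top.Main

set_option autoImplicit false
open Claims Claims.C0499
open scoped ContDiff
open MeasureTheory
open Claims Claims.C0499

namespace Claimed.Agent.S0571

theorem result (n : ℕ) (hn : 3 ≤ n) :
    ∃ C : ℝ, (n = 3 → C = 500) ∧ ∀ (N : ℕ) (M : Set (EuclideanSpace ℝ (Fin N)))
      (g : EuclideanSpace ℝ (Fin N) →
        EuclideanSpace ℝ (Fin N) →L[ℝ] EuclideanSpace ℝ (Fin N) →L[ℝ] ℝ),
      IsProperSubmanifold n M → IsConnected M → ContDiff ℝ ∞ g →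
      (∀ (ψ : EuclideanSpace ℝ (Fin n) → EuclideanSpace ℝ (Fin N))
        (U : Set (EuclideanSpace ℝ (Fin n))), IsLocalParam M ψ U → ∀ u ∈ U,
          (coordMetric g ψ u).PosDef) →
      (∀ x ∈ M, ∀ R : ℝ, IsCompact {y | y ∈ M ∧ riemDist M g x y ≤ R}) →
      (∀ φ : EuclideanSpace ℝ (Fin N) → ℝ, ContDiff ℝ ∞ φ → HasCompactSupport φ →
        ∫ x in M, φ x ^ 2 *
            paramValue M (fun ψ u => Real.sqrt ((coordMetric g ψ u).det /
              (Matrix.of fun i j : Fin n => inner ℝ (fderiv ℝ ψ u (EuclideanSpace.single i 1))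
                (fderiv ℝ ψ u (EuclideanSpace.single j 1))).det)) x ∂μH[(n : ℝ)] ≤
          ∫ x in M, paramValue M (fun ψ u =>
              (4 * ∑ i : Fin n, ∑ j : Fin n, (coordMetric g ψ u)⁻¹ i j *
                  pdiff (φ ∘ ψ) i u * pdiff (φ ∘ ψ) j u +
                scalarCoord (coordMetric g ψ) u * φ (ψ u) ^ 2) *
              Real.sqrt ((coordMetric g ψ u).det /
                (Matrix.of fun i j : Fin n => inner ℝ (fderiv ℝ ψ u (EuclideanSpace.single i 1))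
                  (fderiv ℝ ψ u (EuclideanSpace.single j 1))).det)) x ∂μH[(n : ℝ)]) →
      ∃ (V : Type) (_ : NormedAddCommGroup V) (_ : NormedSpace ℝ V)
        (K : Geometry.SimplicialComplex ℝ V) (f : EuclideanSpace ℝ (Fin N) → V),
        (∀ s ∈ K.faces, s.card ≤ n - 1) ∧ ContinuousOn f M ∧ (∀ x ∈ M, f x ∈ K.space) ∧
        (∀ x ∈ M, ∃ W ∈ nhds x, ∃ S : Finset (Finset V), ↑S ⊆ K.faces ∧
          f '' (W ∩ M) ⊆ ⋃ s ∈ S, convexHull ℝ (s : Set V)) ∧
        ∀ x ∈ M, ∀ x' ∈ M, f x = f x' → riemDist M g x x' ≤ C :=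
  Claimed.Agent.R315.top n hn

end Claimed.Agent.S0571
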