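import Claimed.Statements.S0572
import Claimed.Agent.R316.Top.Final

set_option autoImplicit false
open Claims Claims.C0500
open scoped ContDiff
open Claims Claims.C0500

namespace Claimed.Agent.S0572

theorem result (n : ℕ) (hn : 1 ≤ n) (N : ℕ) (M : Set (EuclideanSpace ℝ (Fin N)))
    (hclosed : IsClosed M) (hnoncpt : ¬ IsCompact M) (hconn : IsConnected M)
    (hsub : ∀ p ∈ M, ∃ (ψ : EuclideanSpace ℝ (Fin (2 * n)) → EuclideanSpace ℝ (Fin N))
      (U : Set (EuclideanSpace ℝ (Fin (2 * n)))), IsLocalParam M ψ U ∧ p ∈ ψ '' U)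
    (J : EuclideanSpace ℝ (Fin N) → EuclideanSpace ℝ (Fin N) →L[ℝ] EuclideanSpace ℝ (Fin N))
    (hJ : IsKahlerEmbedded n M J)
    (hbisec : ∀ (ψ : EuclideanSpace ℝ (Fin (2 * n)) → EuclideanSpace ℝ (Fin N))
      (U : Set (EuclideanSpace ℝ (Fin (2 * n)))), IsLocalParam M ψ U → ∀ u ∈ U,
        ∀ v w v' w' : EuclideanSpace ℝ (Fin (2 * n)), v ≠ 0 → w ≠ 0 →
          fderiv ℝ ψ u v' = J (ψ u) (fderiv ℝ ψ u v) →
          fderiv ℝ ψ u w' = J (ψ u) (fderiv ℝ ψ u w) →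
          0 < inner ℝ (secondFund ψ u v' w') (secondFund ψ u v w) -
            inner ℝ (secondFund ψ u v w') (secondFund ψ u v' w)) :
    ∃ F : EuclideanSpace ℝ (Fin N) → EuclideanSpace ℂ (Fin n),
      Set.BijOn F M Set.univ ∧
      ∀ (ψ : EuclideanSpace ℝ (Fin (2 * n)) → EuclideanSpace ℝ (Fin N))
        (U : Set (EuclideanSpace ℝ (Fin (2 * n)))), IsLocalParam M ψ U →
          ContDiffOn ℝ ∞ (F ∘ ψ) U ∧ ∀ u ∈ U,
            Function.Injective (fderiv ℝ (F ∘ ψ) u) ∧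
            ∀ v v' : EuclideanSpace ℝ (Fin (2 * n)),
              fderiv ℝ ψ u v' = J (ψ u) (fderiv ℝ ψ u v) →
                fderiv ℝ (F ∘ ψ) u v' = Complex.I • fderiv ℝ (F ∘ ψ) u v :=
  Claimed.Agent.R316.yau n hn N M hclosed hnoncpt hconn hsub J hJ hbisec

end Claimed.Agent.S0572
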