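-- Statement S0579 (row 322): dimH sing ≤ m - 1 for stationary integral varifolds.
import Claimed.Statements.S0579
import Claimed.Agent.R322.Top

set_option autoImplicit false
open Claims Claims.C0507
open scoped ENNReal ContDiff
open MeasureTheory
open Claims Claims.C0507

namespace Claimed.Agent.S0579

theorem result (m n : ℕ) (hm : 1 ≤ m) (hn : 1 ≤ n)
    (U : Set (EuclideanSpace ℝ (Fin (m + n)))) (hU : IsOpen U) (V : IntegralVarifold m n U)
    (hV : V.IsStationary) :
    dimH V.sing ≤ ((m - 1 : ℕ) : ℝ≥0∞) :=
  Claimed.Agent.R322.frozen m n hm hn U hU V hV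

end Claimed.Agent.S0579
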