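import Claimed.Statements.S0580
import Claimed.Agent.R323.Top

set_option autoImplicit false
open Claims Claims.C0508
open scoped Manifold ContDiff ENNReal
open MeasureTheory
open Claims Claims.C0508

namespace Claimed.Agent.S0580

theorem result (m : ℕ) (hm : 2 ≤ m) (M : Type*) [TopologicalSpace M]
    [T2Space M] [CompactSpace M] [ConnectedSpace M]
    [ChartedSpace (EuclideanSpace ℝ (Fin m)) M] [IsManifold (𝓡 m) ∞ M]
    (F : M → EuclideanSpace ℝ (Fin (m + 2)))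
    (hF : ContMDiff (𝓡 m) 𝓘(ℝ, EuclideanSpace ℝ (Fin (m + 2))) ∞ F)
    (hsph : ∀ x, ‖F x‖ = 1)
    (himm : ∀ x, Function.Injective (mfderiv (𝓡 m) 𝓘(ℝ, EuclideanSpace ℝ (Fin (m + 2))) F x))
    (hmin : IsMinimalInSphere m F)
    (hntg : ¬ ∃ a : EuclideanSpace ℝ (Fin (m + 2)), a ≠ 0 ∧ ∀ x, inner ℝ a (F x) = 0) :
    (⨅ (k : ℕ) (_ : 1 ≤ k ∧ k < m), μH[(m : ℝ)] (cliffordProduct m k)) ≤ volWithMult m F :=
  Claimed.Agent.R323.top_result m hm M F hF hsph himm hmin hntg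

end Claimed.Agent.S0580
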